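import Vale.Agent.P370Z.Basic

/-!
# P370, block MF: from the model with one particle per block to `N` particles with a core
-/

set_option linter.unusedSectionVars false

namespace Vale.Agent.P370Z

open MeasureTheory Finset

namespace MF

/-! ### Two-body terms as sums of squares -/

section General

variable {ι L : Type} [Fintype ι] [DecidableEq ι] [Fintype L] [DecidableEq L]

theorem sum_update (i : ι) (g : (ι → L) → L → ℝ) :
    ∑ l, ∑ a, g l a = ∑ l, ∑ a, g (Function.update l i a) (l i) := by
  rw [← Fintype.sum_prod_type', ← Fintype.sum_prod_type']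
  let e : (ι → L) × L ≃ (ι → L) × L :=
    { toFun := fun p => (Function.update p.1 i p.2, p.1 i)
      invFun := fun p => (Function.update p.1 i p.2, p.1 i)
      left_inv := fun p => by simp
      right_inv := fun p => by simp }
  exact (Equiv.sum_comp e (fun p => g p.1 p.2)).symm

theorem sum_update_one (i : ι) (g : (ι → L) → ℝ) :
    ∑ l, ∑ a, g (Function.update l i a) = (Fintype.card L : ℝ) * ∑ l, g l := by
  rw [← sum_update i (fun l _ => g l)]
  simp [mul_sum]

theorem sum_update_two (i j : ι) (g : (ι → L) → ℝ) :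
    ∑ l, ∑ a, ∑ a', g (Function.update (Function.update l i a) j a') =
      (Fintype.card L : ℝ) ^ 2 * ∑ l, g l := by
  rw [sum_update_one i (fun l => ∑ a', g (Function.update l j a')), sum_update_one j g]
  ring

/-- contraction of the places `i` and `j` -/
def ctr (i j : ι) (u w : L → ℝ) (c : (ι → L) → ℝ) (l : ι → L) : ℝ :=
  ∑ a, ∑ a', u a * w a' * c (Function.update (Function.update l i a) j a')

theorem ctr_update {i j : ι} (hij : i ≠ j) (u w : L → ℝ) (c : (ι → L) → ℝ) (l : ι → L)
    (a a' : L) : ctr i j u w c (Function.update (Function.update l i a) j a') = ctr i j u w c l := by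
  unfold ctr
  refine sum_congr rfl fun b _ => sum_congr rfl fun b' _ => ?_
  congr 2
  funext k
  by_cases h1 : k = j
  · subst h1; simp
  · by_cases h2 : k = i
    · subst h2; simp [h1]
    · simp [h1, h2]

theorem prod_two {i j : ι} (hij : i ≠ j) (A A' : L → L → ℝ) (l l' : ι → L) :
    ∏ k, two i j A A' k (l k) (l' k) = A (l i) (l' i) * A' (l j) (l' j) *
      (if l' = Function.update (Function.update l i (l' i)) j (l' j) then 1 else 0) := by
  rw [← mul_prod_erase univ _ (mem_univ i),
    ← mul_prod_erase (univ.erase i) _ (mem_erase.2 ⟨hij.symm, mem_univ j⟩)]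
  have e1 : two i j A A' i = A := by simp [two]
  have e2 : two i j A A' j = A' := by simp [two, hij.symm]
  rw [e1, e2, mul_assoc]
  congr 2
  split_ifs with h
  · refine prod_eq_one fun k hk => ?_
    rw [mem_erase, mem_erase] at hk
    have : l' k = l k := by
      rw [h]; simp [hk.1, hk.2.1]
    simp [two, hk.1, hk.2.1, idm, this]
  · have : ∃ k, l' k ≠ Function.update (Function.update l i (l' i)) j (l' j) k := by
      by_contra h1
      push Not at h1
      exact h (funext h1)
    obtain ⟨k, hk⟩ := this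
    have h1 : k ≠ j := by rintro rfl; simp at hk
    have h2 : k ≠ i := by rintro rfl; simp [h1] at hk
    refine prod_eq_zero (i := k) (by simp [h1, h2]) ?_
    simp only [Function.update_of_ne h1, Function.update_of_ne h2] at hk
    simp [two, h1, h2, idm, hk.symm]

theorem sum_fix {i j : ι} (hij : i ≠ j) (g : (ι → L) → ℝ) (l : ι → L) :
    ∑ l', g l' * (if l' = Function.update (Function.update l i (l' i)) j (l' j) then 1 else 0) =
      ∑ a, ∑ a', g (Function.update (Function.update l i a) j a') := by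
  rw [← Fintype.sum_prod_type']
  symm
  refine Fintype.sum_of_injective
    (fun p : L × L => Function.update (Function.update l i p.1) j p.2) ?_ _ _ ?_ ?_
  · intro p q h
    have h1 := congrFun h i
    have h2 := congrFun h j
    simp [hij] at h1 h2
    exact Prod.ext h1 h2
  · intro l' hl'
    rw [if_neg, mul_zero]
    intro h
    exact hl' ⟨(l' i, l' j), h.symm⟩
  · intro p
    simp [hij]

theorem tens_two {i j : ι} (hij : i ≠ j) (u w : L → ℝ) (c : (ι → L) → ℝ) :
    (Fintype.card L : ℝ) ^ 2 * tens (two i j (outer u) (outer w)) c c =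
      ∑ l, ctr i j u w c l ^ 2 := by
  have h1 : tens (two i j (outer u) (outer w)) c c =
      ∑ l, (u (l i) * w (l j) * c l) * ctr i j u w c l := by
    unfold tens
    refine sum_congr rfl fun l _ => ?_
    have h2 := sum_fix hij (fun l' => u (l' i) * w (l' j) * c l') l
    have h3 : ctr i j u w c l = ∑ a, ∑ a', (fun l' => u (l' i) * w (l' j) * c l')
        (Function.update (Function.update l i a) j a') := by
      unfold ctr
      simp [hij]
    rw [h3, ← h2, mul_sum]
    refine sum_congr rfl fun l' _ => ?_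
    rw [prod_two hij]
    unfold outer
    ring
  rw [h1, ← sum_update_two i j]
  refine sum_congr rfl fun l _ => ?_
  simp only [ctr_update hij]
  rw [sq]
  nth_rewrite 2 [ctr]
  rw [sum_mul]
  refine sum_congr rfl fun a _ => ?_
  rw [sum_mul]
  refine sum_congr rfl fun a' _ => ?_
  simp [hij]

theorem card_pos_or (i : ι) : (0 : ℝ) < Fintype.card L ∨ IsEmpty (ι → L) := by
  rcases isEmpty_or_nonempty L with h | h
  · exact Or.inr ⟨fun f => h.elim (f i)⟩
  · left; exact_mod_cast Fintype.card_pos

theorem tens_two_nonneg {i j : ι} (hij : i ≠ j) (u w : L → ℝ) (c : (ι → L) → ℝ) :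
    0 ≤ tens (two i j (outer u) (outer w)) c c := by
  rcases card_pos_or (L := L) i with h | h
  · have h1 := tens_two hij u w c
    have h2 : 0 ≤ ∑ l, ctr i j u w c l ^ 2 := sum_nonneg fun _ _ => sq_nonneg _
    rw [← h1] at h2
    exact nonneg_of_mul_nonneg_right h2 (by positivity) |> fun h3 => h3
  · simp [tens]

/-- the part of a tensor with a given pattern -/
def cut {Q : Type} [DecidableEq Q] (p : (ι → L) → Q) (P : Q) (c : (ι → L) → ℝ) (l : ι → L) : ℝ :=
  if p l = P then c l else 0

theorem tens_split {Q : Type} [Fintype Q] [DecidableEq Q] (p : (ι → L) → Q) (M : ι → L → L → ℝ)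
    (hM : ∀ l l' : ι → L, ∏ k, M k (l k) (l' k) ≠ 0 → p l = p l') (c : (ι → L) → ℝ) :
    tens M c c = ∑ P, tens M (cut p P c) (cut p P c) := by
  unfold tens
  rw [sum_comm (s := univ) (t := univ) (γ := Q)]
  refine sum_congr rfl fun l _ => ?_
  rw [sum_comm (s := univ) (t := univ) (γ := Q)]
  refine sum_congr rfl fun l' _ => ?_
  rw [sum_eq_single (p l)]
  · by_cases h : ∏ k, M k (l k) (l' k) = 0
    · rw [h, mul_zero, mul_zero]
    · simp [cut, hM l l' h]
  · intro P _ hP
    simp [cut, hP.symm]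
  · simp

theorem nsqT_split {Q : Type} [Fintype Q] [DecidableEq Q] (p : (ι → L) → Q) (c : (ι → L) → ℝ) :
    nsqT c = ∑ P, nsqT (cut p P c) := by
  unfold nsqT
  rw [sum_comm]
  refine sum_congr rfl fun l _ => ?_
  rw [sum_eq_single (p l)]
  · simp [cut]
  · intro P _ hP
    simp [cut, hP.symm]
  · simp

end General

/-! ### Patterns -/

variable {B C D Ec : Type} [Fintype B] [DecidableEq B] [Fintype C] [DecidableEq C] [Fintype D]
  [DecidableEq D] [Fintype Ec] {N : ℕ}

/-- the pattern of a configuration -/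
def pat (blk : D → B) (l : Fin N → C ⊕ D) : Fin N → C ⊕ B := fun i => Sum.map id blk (l i)

/-- the configuration with pattern `P` and valence labels `m` -/
def emb (P : Fin N → C ⊕ B) (m : B → D) : Fin N → C ⊕ D := fun i => Sum.map id m (P i)

theorem map_eq_of_ext0 {blk : D → B} {u : D → ℝ}
    (hu : ∀ d d', u d ≠ 0 → u d' ≠ 0 → blk d = blk d') {a a' : C ⊕ D}
    (h : outer (ext0 C u) a a' ≠ 0) : Sum.map id blk a = Sum.map id blk a' := by
  rcases a with a | a <;> rcases a' with a' | a' <;> simp [outer, ext0] at h ⊢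
  exact hu _ _ h.1 h.2

theorem pat_eq {blk : D → B} {U W : Ec → D → ℝ} (hb : BlkOK blk U W) (e : Ec) (i j : Fin N)
    (l l' : Fin N → C ⊕ D)
    (h : ∏ k, two i j (outer (ext0 C (U e))) (outer (ext0 C (W e))) k (l k) (l' k) ≠ 0) :
    pat blk l = pat blk l' := by
  funext k
  have h1 := prod_ne_zero_iff.1 h k (mem_univ k)
  unfold two at h1
  unfold pat
  split_ifs at h1 with h2 h3
  · exact map_eq_of_ext0 (hb.blkU e) h1
  · exact map_eq_of_ext0 (hb.blkW e) h1
  · have : l k = l' k := by
      by_contra h4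
      exact h1 (if_neg h4)
    rw [this]

theorem HF_split {blk : D → B} {U W : Ec → D → ℝ} (hb : BlkOK blk U W)
    (c : (Fin N → C ⊕ D) → ℝ) :
    HF (fun e => ext0 C (U e)) (fun e => ext0 C (W e)) c =
      ∑ P, HF (fun e => ext0 C (U e)) (fun e => ext0 C (W e)) (cut (pat blk) P c) := by
  unfold HF
  rw [sum_comm (s := univ) (t := univ) (γ := Fin N → C ⊕ B)]
  refine sum_congr rfl fun e _ => ?_
  rw [sum_comm (s := univ) (t := univ) (γ := Fin N → C ⊕ B)]
  refine sum_congr rfl fun i _ => ?_
  rw [sum_comm (γ := Fin N → C ⊕ B)]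
  exact sum_congr rfl fun j _ => tens_split _ _ (pat_eq hb e i j) c

/-- `σ β` is the only place of the pattern `P` with block `β` -/
structure Sec (P : Fin N → C ⊕ B) (σ : B → Fin N) : Prop where
  eq : ∀ β, P (σ β) = .inr β
  uniq : ∀ i β, P i = .inr β → i = σ β

section Sec

variable {P : Fin N → C ⊕ B} {σ : B → Fin N}

theorem Sec.inj (h : Sec P σ) : Function.Injective σ := by
  intro β β' h1
  have h2 := h.eq β
  rw [h1, h.eq β'] at h2
  exact (Sum.inr.inj h2).symm

theorem Sec.emb_sec (h : Sec P σ) (m : B → D) (β : B) : emb P m (σ β) = .inr (m β) := by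
  simp [emb, h.eq]

theorem Sec.emb_inj (h : Sec P σ) : Function.Injective (emb (D := D) P) := by
  intro m m' h1
  funext β
  have h2 := congrFun h1 (σ β)
  rw [h.emb_sec, h.emb_sec] at h2
  exact Sum.inr.inj h2

theorem Sec.core (h : Sec P σ) {i : Fin N} (hi : i ∉ Set.range σ) :
    ∃ c, ∀ m : B → D, emb P m i = .inl c := by
  rcases h1 : P i with c | β
  · exact ⟨c, fun m => by simp [emb, h1]⟩
  · exact absurd ⟨β, (h.uniq i β h1).symm⟩ hi

theorem Sec.mem_range (h : Sec P σ) {blk : D → B} {l : Fin N → C ⊕ D} (hl : pat blk l = P) :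
    l ∈ Set.range (emb (D := D) P) := by
  have h1 : ∀ β, ∃ d, l (σ β) = .inr d := by
    intro β
    have h2 := congrFun hl (σ β)
    rw [h.eq] at h2
    unfold pat at h2
    rcases h3 : l (σ β) with c | d
    · rw [h3] at h2; simp at h2
    · exact ⟨d, rfl⟩
  choose m hm using h1
  refine ⟨m, funext fun i => ?_⟩
  have h2 := congrFun hl i
  unfold pat at h2
  rcases h3 : l i with c | d
  · rw [h3] at h2
    simp [emb, ← h2]
  · rw [h3] at h2
    have h4 : P i = .inr (blk d) := by rw [← h2]; rfl
    have h5 := h.uniq i _ h4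
    have h6 := hm (blk d)
    rw [← h5, h3] at h6
    simp [emb, h4, ← Sum.inr.inj h6]

theorem Sec.sum_emb (h : Sec P σ) (g : (Fin N → C ⊕ D) → ℝ)
    (hg : ∀ l, l ∉ Set.range (emb (D := D) P) → g l = 0) : ∑ l, g l = ∑ m, g (emb P m) :=
  (Fintype.sum_of_injective _ h.emb_inj _ _ hg fun _ => rfl).symm

theorem Sec.nsqT_eq (h : Sec P σ) (c : (Fin N → C ⊕ D) → ℝ)
    (hc : ∀ l, l ∉ Set.range (emb (D := D) P) → c l = 0) :
    nsqT c = nsqT fun m => c (emb P m) :=
  h.sum_emb _ fun l hl => by simp [hc l hl]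

theorem Sec.tens_eq (h : Sec P σ) (M : Fin N → C ⊕ D → C ⊕ D → ℝ) (c : (Fin N → C ⊕ D) → ℝ)
    (hc : ∀ l, l ∉ Set.range (emb (D := D) P) → c l = 0) :
    tens M c c = ∑ m, ∑ m', c (emb P m) * c (emb P m') *
      ∏ k, M k (emb P m k) (emb P m' k) := by
  unfold tens
  rw [h.sum_emb _ fun l hl => by simp [hc l hl]]
  exact sum_congr rfl fun m _ => h.sum_emb _ fun l hl => by simp [hc l hl]

theorem Sec.prod_eq (h : Sec P σ) (u w : D → ℝ) (β β' : B) (m m' : B → D) :
    ∏ k, two (σ β) (σ β') (outer (ext0 C u)) (outer (ext0 C w)) k (emb P m k) (emb P m' k) =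
      ∏ b, two β β' (outer u) (outer w) b (m b) (m' b) := by
  symm
  refine Fintype.prod_of_injective σ h.inj _ _ ?_ ?_
  · intro k hk
    obtain ⟨c, hc⟩ := h.core (D := D) hk
    have h1 : k ≠ σ β := fun h1 => hk ⟨β, h1.symm⟩
    have h2 : k ≠ σ β' := fun h2 => hk ⟨β', h2.symm⟩
    simp [two, h1, h2, hc, idm]
  · intro b
    rw [h.emb_sec, h.emb_sec]
    unfold two
    simp only [h.inj.eq_iff]
    split_ifs <;> simp [outer, ext0, idm]

theorem Sec.HF_eq (h : Sec P σ) (U W : Ec → D → ℝ) (c : (Fin N → C ⊕ D) → ℝ)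
    (hc : ∀ l, l ∉ Set.range (emb (D := D) P) → c l = 0) :
    HF (fun e => ext0 C (U e)) (fun e => ext0 C (W e)) c = HF U W fun m => c (emb P m) := by
  unfold HF
  refine sum_congr rfl fun e _ => ?_
  symm
  refine Fintype.sum_of_injective σ h.inj _ _ ?_ ?_
  · intro i hi
    obtain ⟨a, ha⟩ := h.core (D := D) hi
    refine sum_eq_zero fun j _ => ?_
    rw [h.tens_eq _ c hc]
    refine sum_eq_zero fun m _ => sum_eq_zero fun m' _ => ?_
    rw [prod_eq_zero (mem_univ i), mul_zero]
    simp [two, ha, outer, ext0]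
  · intro β
    refine sum_of_injOn σ h.inj.injOn ?_ ?_ ?_
    · intro β' hβ'
      rw [mem_coe, mem_erase] at hβ' ⊢
      exact ⟨fun h1 => hβ'.1 (h.inj h1), mem_univ _⟩
    · intro j hj hj'
      have hi : j ∉ Set.range σ := by
        rintro ⟨β', rfl⟩
        apply hj'
        refine ⟨β', ?_, rfl⟩
        rw [mem_erase] at hj
        simp only [coe_erase, coe_univ, Set.mem_sdiff, Set.mem_univ, Set.mem_singleton_iff,
          true_and]
        rintro rfl
        exact hj.1 rfl
      obtain ⟨a, ha⟩ := h.core (D := D) hi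
      rw [h.tens_eq _ c hc]
      refine sum_eq_zero fun m _ => sum_eq_zero fun m' _ => ?_
      rw [prod_eq_zero (mem_univ j), mul_zero]
      simp [two, (mem_erase.1 hj).1, ha, outer, ext0]
    · intro β' _
      rw [h.tens_eq _ c hc]
      unfold tens
      simp only [h.prod_eq]

end Sec

/-! ### The lower bound -/

theorem low_pen {blk : D → B} {U W : Ec → D → ℝ} {b : ℝ}
    (pen : ∀ (β : B) (c : D → D → ℝ), (∀ d d', c d d' ≠ 0 → blk d = β ∧ blk d' = β) →
      b * ∑ d, ∑ d', c d d' ^ 2 ≤ ∑ e, (∑ d, ∑ d', U e d * W e d' * c d d') ^ 2)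
    {i j : Fin N} (hij : i ≠ j) {β : B} (c : (Fin N → C ⊕ D) → ℝ)
    (hc : ∀ l, c l ≠ 0 → pat blk l i = .inr β ∧ pat blk l j = .inr β) :
    b * nsqT c ≤ HF (fun e => ext0 C (U e)) (fun e => ext0 C (W e)) c := by
  have h1 : ∑ e, tens (two i j (outer (ext0 C (U e))) (outer (ext0 C (W e)))) c c ≤
      HF (fun e => ext0 C (U e)) (fun e => ext0 C (W e)) c := by
    unfold HF
    refine sum_le_sum fun e _ => ?_
    refine le_trans ?_ (single_le_sum (f := fun i => ∑ j ∈ univ.erase i,
      tens (two i j (outer (ext0 C (U e))) (outer (ext0 C (W e)))) c c)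
      (fun i _ => sum_nonneg fun j hj => tens_two_nonneg (mem_erase.1 hj).1.symm _ _ _)
      (mem_univ i))
    exact single_le_sum (f := fun j =>
      tens (two i j (outer (ext0 C (U e))) (outer (ext0 C (W e)))) c c)
      (fun j hj => tens_two_nonneg (mem_erase.1 hj).1.symm _ _ _)
      (mem_erase.2 ⟨hij.symm, mem_univ j⟩)
  refine le_trans ?_ h1
  rcases card_pos_or (L := C ⊕ D) i with hL | hL
  swap
  · simp [nsqT, tens]
  refine le_of_mul_le_mul_left ?_ (pow_pos hL 2)
  rw [mul_sum, sum_congr rfl fun e _ => tens_two hij _ _ c, sum_comm, mul_left_comm, nsqT,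
    ← sum_update_two i j, mul_sum]
  refine sum_le_sum fun l _ => ?_
  have h2 := pen β (fun d d' => c (Function.update (Function.update l i (.inr d)) j (.inr d')))
    (fun d d' h => by
      have h3 := hc _ h
      simpa [pat, hij] using h3)
  have z1 : ∀ a a', c (Function.update (Function.update l i (.inl a)) j a') = 0 := by
    intro a a'
    by_contra h
    have h3 := (hc _ h).1
    simp [pat, hij] at h3
  have z2 : ∀ a a', c (Function.update (Function.update l i a) j (.inl a')) = 0 := by
    intro a a'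
    by_contra h
    have h3 := (hc _ h).2
    simp [pat] at h3
  simpa [ctr, Fintype.sum_sum_type, z1, z2, ext0] using h2

theorem exists_sec (P : Fin N → C ⊕ B)
    (hcard : (univ.filter fun i => (P i).isRight = true).card = Fintype.card B)
    (hinj : ∀ i j β, P i = .inr β → P j = .inr β → i = j) : ∃ σ, Sec P σ := by
  have h1 : ((univ.filter fun i => (P i).isRight = true).image P) =
      (univ : Finset B).map ⟨Sum.inr, Sum.inr_injective⟩ := by
    apply eq_of_subset_of_card_le
    · intro a ha
      rw [mem_image] at ha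
      obtain ⟨i, hi, rfl⟩ := ha
      rw [mem_filter] at hi
      rcases h : P i with c | β
      · rw [h] at hi; simp at hi
      · simp
    · rw [card_map, card_univ, card_image_of_injOn, hcard]
      intro i hi j _ hij
      simp only [coe_filter, mem_univ, true_and, Set.mem_ofPred_eq] at hi
      rcases h : P i with c | β
      · rw [h] at hi; simp at hi
      · exact hinj i j β h (hij ▸ h)
  have h2 : ∀ β, ∃ i, P i = .inr β := by
    intro β
    have : (Sum.inr β : C ⊕ B) ∈ (univ.filter fun i => (P i).isRight = true).image P := by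
      rw [h1]; simp
    obtain ⟨i, -, hi⟩ := mem_image.1 this
    exact ⟨i, hi⟩
  choose σ hσ using h2
  exact ⟨σ, hσ, fun i β h => hinj _ _ β h (hσ β)⟩

/-! ### The trial tensor -/

/-- the slot of each particle -/
def slotOf (s : Sp N) (P : Fin N → C ⊕ B) : Fin N → (C × Fin 2) ⊕ B :=
  fun i => Sum.map (fun c => (c, s i)) id (P i)

open Classical in
/-- the sign of an arrangement of the slots -/
noncomputable def sgn (sl : Fin N ≃ (C × Fin 2) ⊕ B) (f : Fin N → (C × Fin 2) ⊕ B) : ℝ :=
  ∑ ρ : Equiv.Perm (Fin N), if f = sl ∘ ρ then ((Equiv.Perm.sign ρ : ℤ) : ℝ) else 0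

open Classical in
/-- the valence amplitude of a configuration -/
noncomputable def amp (blk : D → B) (ψ : (B → D) → ℝ) (l : Fin N → C ⊕ D) : ℝ :=
  ∑ m, if l = emb (pat blk l) m then ψ m else 0

/-- the trial tensor -/
noncomputable def trial (sl : Fin N ≃ (C × Fin 2) ⊕ B) (blk : D → B) (ψ : (B → D) → ℝ) (s : Sp N)
    (l : Fin N → C ⊕ D) : ℝ := sgn sl (slotOf s (pat blk l)) * amp blk ψ l

theorem sgn_comp (sl : Fin N ≃ (C × Fin 2) ⊕ B) (f : Fin N → (C × Fin 2) ⊕ B)
    (π : Equiv.Perm (Fin N)) : sgn sl (f ∘ π) = ((Equiv.Perm.sign π : ℤ) : ℝ) * sgn sl f := by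
  classical
  unfold sgn
  rw [mul_sum, ← Equiv.sum_comp (Equiv.mulRight π)]
  refine sum_congr rfl fun ρ _ => ?_
  have h : (f ∘ π = sl ∘ (Equiv.mulRight π ρ)) ↔ f = sl ∘ ρ := by
    have : (sl ∘ (Equiv.mulRight π ρ) : Fin N → _) = (sl ∘ ρ) ∘ π := rfl
    rw [this]
    exact π.surjective.right_cancellable
  simp only [h]
  split_ifs
  · simp [mul_comm]
  · simp

theorem bij_of_sgn {sl : Fin N ≃ (C × Fin 2) ⊕ B} {f : Fin N → (C × Fin 2) ⊕ B}
    (h : sgn sl f ≠ 0) : Function.Bijective f := by
  classical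
  obtain ⟨ρ, -, hρ⟩ := exists_ne_zero_of_sum_ne_zero h
  have : f = sl ∘ ρ := by
    by_contra h1
    exact hρ (if_neg h1)
  rw [this]
  exact sl.bijective.comp ρ.bijective

theorem sgn_self (sl : Fin N ≃ (C × Fin 2) ⊕ B) : sgn sl sl = 1 := by
  classical
  unfold sgn
  rw [sum_eq_single 1]
  · simp
  · intro ρ _ hρ
    rw [if_neg]
    intro h
    apply hρ
    ext i
    have := congrFun h i
    simp only [Function.comp_apply, EmbeddingLike.apply_eq_iff_eq] at this
    rw [← this]; rfl
  · simp

theorem amp_comp (blk : D → B) (ψ : (B → D) → ℝ) (l : Fin N → C ⊕ D) (π : Equiv.Perm (Fin N)) :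
    amp blk ψ (l ∘ π) = amp blk ψ l := by
  classical
  unfold amp
  refine sum_congr rfl fun m _ => ?_
  have h : (l ∘ π = emb (pat blk (l ∘ π)) m) ↔ l = emb (pat blk l) m := by
    have : emb (pat blk (l ∘ π)) m = (emb (pat blk l) m) ∘ π := rfl
    rw [this]
    exact π.surjective.right_cancellable
  simp only [h]

theorem sec_of_bij {s : Sp N} {P : Fin N → C ⊕ B} (h : Function.Bijective (slotOf s P)) :
    ∃ σ, Sec P σ := by
  have h1 : ∀ i β, P i = .inr β ↔ slotOf s P i = .inr β := by
    intro i β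
    unfold slotOf
    rcases P i with c | β' <;> simp
  choose σ hσ using fun β => h.2 (.inr β)
  exact ⟨σ, fun β => (h1 _ _).2 (hσ β), fun i β hi => h.1 (by rw [(h1 _ _).1 hi, hσ])⟩

theorem cut_trial (sl : Fin N ≃ (C × Fin 2) ⊕ B) {blk : D → B} {ψ : (B → D) → ℝ}
    (hψ : IdPat blk ψ) (s : Sp N) {P : Fin N → C ⊕ B} {σ : B → Fin N} (h : Sec P σ) (m : B → D) :
    cut (pat blk) P (trial sl blk ψ s) (emb P m) = sgn sl (slotOf s P) * ψ m := by
  classical
  unfold cut
  split_ifs with h1
  · unfold trial amp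
    rw [h1]
    simp [h.emb_inj.eq_iff]
  · have : ψ m = 0 := by
      by_contra h2
      apply h1
      funext i
      unfold pat emb
      rcases P i with c | β
      · rfl
      · simp [hψ m h2 β]
    rw [this, mul_zero]

theorem HF_smul {ι L : Type} [Fintype ι] [DecidableEq ι] [Fintype L] [DecidableEq L]
    (U W : Ec → L → ℝ) (t : ℝ) (c : (ι → L) → ℝ) :
    HF U W (fun l => t * c l) = t ^ 2 * HF U W c := by
  unfold HF tens
  simp only [mul_sum]
  refine sum_congr rfl fun _ _ => sum_congr rfl fun _ _ => sum_congr rfl fun _ _ =>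
    sum_congr rfl fun _ _ => sum_congr rfl fun _ _ => by ring

theorem nsqT_smul {ι L : Type} [Fintype ι] [DecidableEq ι] [Fintype L]
    (t : ℝ) (c : (ι → L) → ℝ) : nsqT (fun l => t * c l) = t ^ 2 * nsqT c := by
  unfold nsqT
  rw [mul_sum]
  exact sum_congr rfl fun _ _ => by ring

end MF

open MF

variable {B C D Ec : Type} [Fintype B] [DecidableEq B] [Fintype C] [DecidableEq C] [Fintype D]
  [DecidableEq D] [Fintype Ec]

theorem mf_low (N : ℕ) (blk : D → B) (U W : Ec → D → ℝ) (b : ℝ) (hb : BlkOK blk U W)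
    (h : KitLow blk U W b) : MFLow N C U W (Fintype.card B) b := by
  intro c hc
  rw [HF_split hb, nsqT_split (pat blk), mul_sum]
  refine sum_le_sum fun P _ => ?_
  have hs : ∀ l, cut (pat blk) P c l ≠ 0 → pat blk l = P ∧ c l ≠ 0 := by
    intro l hl
    unfold cut at hl
    split_ifs at hl with h1
    · exact ⟨h1, hl⟩
    · exact absurd rfl hl
  by_cases h0 : ∀ l, cut (pat blk) P c l = 0
  · have : cut (pat blk) P c = fun l => 0 * c l := funext fun l => by rw [h0, zero_mul]
    rw [this, HF_smul, nsqT_smul]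
    simp
  push Not at h0
  obtain ⟨l0, hl0⟩ := h0
  by_cases hinj : ∀ i j β, P i = .inr β → P j = .inr β → i = j
  · have hcard : (univ.filter fun i => (P i).isRight = true).card = Fintype.card B := by
      rw [← hc l0 (hs l0 hl0).2, ← (hs l0 hl0).1]
      simp [pat]
    obtain ⟨σ, hσ⟩ := exists_sec P hcard hinj
    have hr : ∀ l, l ∉ Set.range (emb (D := D) P) → cut (pat blk) P c l = 0 := by
      intro l hl
      by_contra h1
      exact hl (hσ.mem_range (hs l h1).1)
    rw [hσ.HF_eq U W _ hr, hσ.nsqT_eq _ hr]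
    refine h.low _ fun m hm β => ?_
    have h1 := congrFun (hs _ hm).1 (σ β)
    rw [hσ.eq] at h1
    unfold pat at h1
    rw [hσ.emb_sec] at h1
    simpa using h1
  · push Not at hinj
    obtain ⟨i, j, β, hi, hj, hij⟩ := hinj
    exact low_pen h.pen hij _ fun l hl => by rw [(hs l hl).1]; exact ⟨hi, hj⟩

theorem mf_up (N : ℕ) (hN : N = 2 * Fintype.card C + Fintype.card B) (blk : D → B)
    (U W : Ec → D → ℝ) (a : ℝ) (hb : BlkOK blk U W) (h : KitUp blk U W a) :
    ∃ c, MFTrial N C blk U W a c := by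
  obtain ⟨ψ, hψ, hpos, hup⟩ := h
  have sl : Fin N ≃ (C × Fin 2) ⊕ B := Fintype.equivOfCardEq (by simp [hN]; ring)
  have hbij : ∀ s l, trial sl blk ψ s l ≠ 0 → Function.Bijective (slotOf s (pat blk l)) :=
    fun s l hl => bij_of_sgn (left_ne_zero_of_mul hl)
  refine ⟨trial sl blk ψ, ?_, ?_, ?_, ?_, ?_, ?_⟩
  · intro π s l
    unfold trial
    have : slotOf (s ∘ π) (pat blk (l ∘ π)) = slotOf s (pat blk l) ∘ π := rfl
    rw [this, sgn_comp, amp_comp, mul_assoc]
  · obtain ⟨m, -, hm⟩ := exists_ne_zero_of_sum_ne_zero hpos.ne'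
    have hm' : ψ m ≠ 0 := fun h => hm (by simp [h])
    set P : Fin N → C ⊕ B := fun i => Sum.map Prod.fst id (sl i) with hP
    set s : Sp N := fun i => Sum.elim Prod.snd (fun _ => 0) (sl i) with hs
    have h1 : slotOf s P = (sl : Fin N → (C × Fin 2) ⊕ B) := by
      funext i
      simp only [slotOf, hP, hs]
      rcases sl i with c | β <;> simp
    obtain ⟨σ, hσ⟩ := sec_of_bij (s := s) (P := P) (by rw [h1]; exact sl.bijective)
    have h2 := cut_trial sl hψ s hσ m
    rw [h1, sgn_self, one_mul] at h2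
    have h3 : trial sl blk ψ s (emb P m) ≠ 0 := by
      intro h4
      apply hm'
      rw [← h2]
      simp [cut, h4]
    refine sum_pos' (fun s _ => sum_nonneg fun _ _ => sq_nonneg _) ⟨s, mem_univ _, ?_⟩
    exact sum_pos' (fun _ _ => sq_nonneg _) ⟨_, mem_univ _, by positivity⟩
  · intro s
    rw [HF_split hb, nsqT_split (pat blk), mul_sum]
    refine sum_le_sum fun P _ => ?_
    by_cases h0 : sgn sl (slotOf s P) = 0
    · have : cut (pat blk) P (trial sl blk ψ s) = fun l => 0 * trial sl blk ψ s l := by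
        funext l
        unfold cut
        split_ifs with h1
        · unfold trial
          rw [h1, h0]; simp
        · simp
      rw [this, HF_smul, nsqT_smul]
      simp only [ne_eq, OfNat.ofNat_ne_zero, not_false_eq_true, zero_pow, zero_mul, mul_zero,
        le_refl]
    · obtain ⟨σ, hσ⟩ := sec_of_bij (bij_of_sgn h0)
      have hr : ∀ l, l ∉ Set.range (emb (D := D) P) →
          cut (pat blk) P (trial sl blk ψ s) l = 0 := by
        intro l hl
        exact if_neg fun h1 => hl (hσ.mem_range h1)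
      rw [hσ.HF_eq U W _ hr, hσ.nsqT_eq _ hr]
      simp only [cut_trial sl hψ s hσ]
      rw [HF_smul, nsqT_smul, mul_left_comm]
      exact mul_le_mul_of_nonneg_left hup (sq_nonneg _)
  · intro s l hl
    have h1 := (hbij s l hl).sum_comp (fun x => if x.isLeft = true then (1 : ℕ) else 0)
    rw [card_filter]
    have h2 : ∀ i, (slotOf s (pat blk l) i).isLeft = (l i).isLeft := by
      intro i; simp [slotOf, pat]
    simp only [h2] at h1
    rw [h1, Fintype.sum_sum_type]
    simp [mul_comm]
  · intro s l hl i j hij hsame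
    apply hij
    apply (hbij s l hl).1
    unfold slotOf pat
    rcases h1 : l i with c | d <;> rcases h2 : l j with c' | d' <;> rw [h1, h2] at hsame <;>
      simp [SameBlk] at hsame ⊢
    exact hsame
  · intro s l i μ h1 h2
    have b1 := hbij s l h1
    have b2 := hbij s _ h2
    obtain ⟨k, hk⟩ := b1.2 (slotOf s (pat blk (Function.update l i μ)) i)
    have hki : k = i := by
      by_contra h3
      apply h3
      apply b2.1
      rw [← hk]
      simp [slotOf, pat, h3]
    rw [hki] at hk
    simp only [slotOf, pat, Function.update_self] at hk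
    rcases h3 : l i with c | d <;> rcases μ with c' | d' <;> rw [h3] at hk <;> simp at hk ⊢
    exact hk

end Vale.Agent.P370Z
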